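import Crest.Agent.R001.SW.EF

/-!
# Row 1, analytic input (helper774): `ζ₁(s) = (s-1) ζ(s)` on `Re s > 0`
-/

set_option autoImplicit false

open Finset Complex

namespace Crest.Agent.R001.SW

/-- `(s-1)((n+1)^{-s} - ∫_n^{n+1} u^{-s} du)` -/
noncomputable def zt (s : ℂ) (n : ℕ) : ℂ :=
  (s - 1) * ((n + 1 : ℕ) : ℂ) ^ (-s) + (((n + 1 : ℕ) : ℂ) ^ (1 - s) - ((n : ℕ) : ℂ) ^ (1 - s))

lemma hasDerivAt_cpow_one_sub (s : ℂ) {x : ℝ} (hx : 0 < x) :
    HasDerivAt (fun y : ℝ => (y : ℂ) ^ (1 - s)) ((1 - s) * (x : ℂ) ^ (-s)) x := by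
  have h : (x : ℂ) ∈ Complex.slitPlane := Complex.ofReal_mem_slitPlane.mpr hx
  have h1 := (hasDerivAt_id (x : ℂ)).cpow_const (c := 1 - s) h
  have h2 := h1.comp_ofReal
  have e : (1 - s - 1 : ℂ) = -s := by ring
  simpa [e] using h2

lemma norm_zt_le (s : ℂ) (hs : -1 ≤ s.re) {n : ℕ} (hn : 1 ≤ n) :
    ‖zt s n‖ ≤ ‖s - 1‖ * ‖s‖ * (n : ℝ) ^ (-s.re - 1) := by
  have hn0 : (0 : ℝ) < n := by exact_mod_cast hn
  set c : ℂ := ((n + 1 : ℝ) : ℂ) ^ (-s) with hc
  set g : ℝ → ℂ := fun y => (s - 1) * (y : ℂ) * c + (y : ℂ) ^ (1 - s) with hg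
  have h1 : ∀ z ∈ Set.Icc (n : ℝ) (n + 1), HasDerivWithinAt g
      ((s - 1) * (c - (z : ℂ) ^ (-s))) (Set.Icc (n : ℝ) (n + 1)) z := by
    intro z hz
    have hz0 : 0 < z := lt_of_lt_of_le hn0 hz.1
    have h2 : HasDerivAt (fun y : ℝ => (s - 1) * (y : ℂ) * c) ((s - 1) * 1 * c) z :=
      ((Complex.ofRealCLM.hasDerivAt (x := z)).const_mul (s - 1)).mul_const c
    have h3 := h2.add (hasDerivAt_cpow_one_sub s hz0)
    have e : (s - 1) * 1 * c + (1 - s) * (z : ℂ) ^ (-s) = (s - 1) * (c - (z : ℂ) ^ (-s)) := by ring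
    rw [e] at h3
    exact h3.hasDerivWithinAt
  have h2 : ∀ z ∈ Set.Ico (n : ℝ) (n + 1), ‖(s - 1) * (c - (z : ℂ) ^ (-s))‖ ≤
      ‖s - 1‖ * (‖s‖ * (n : ℝ) ^ (-s.re - 1)) := by
    intro z hz
    have hz0 : 0 < z := lt_of_lt_of_le hn0 hz.1
    rw [norm_mul]
    apply mul_le_mul_of_nonneg_left _ (norm_nonneg _)
    have h4 := norm_cpow_sub_le s hs hz0 hz.2.le
    refine h4.trans ?_
    have h5 : z ^ (-s.re - 1) ≤ (n : ℝ) ^ (-s.re - 1) :=
      Real.rpow_le_rpow_of_nonpos hn0 hz.1 (by linarith)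
    have h6 : (n : ℝ) + 1 - z ≤ 1 := by linarith [hz.1]
    have h7 : 0 ≤ (n : ℝ) + 1 - z := by linarith [hz.2]
    calc ‖s‖ * z ^ (-s.re - 1) * (n + 1 - z) ≤ ‖s‖ * (n : ℝ) ^ (-s.re - 1) * 1 := by
          apply mul_le_mul _ h6 h7 (by positivity)
          exact mul_le_mul_of_nonneg_left h5 (norm_nonneg _)
      _ = ‖s‖ * (n : ℝ) ^ (-s.re - 1) := mul_one _
  have h3 := norm_image_sub_le_of_norm_deriv_le_segment' h1 h2 (n + 1) ⟨by linarith, le_rfl⟩
  have e1 : (n + 1 : ℝ) - n = 1 := by ring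
  rw [e1, mul_one] at h3
  have e2 : zt s n = g (n + 1) - g n := by
    simp only [hg, zt, hc]
    push_cast
    ring
  rw [e2, mul_assoc]
  exact h3

lemma summable_zt {s : ℂ} (hs : 0 < s.re) : Summable (fun n : ℕ => zt s (n + 1)) := by
  refine Summable.of_norm_bounded
    (g := fun n : ℕ => ‖s - 1‖ * ‖s‖ * ((n + 1 : ℕ) : ℝ) ^ (-s.re - 1))
    ((summable_rpow_aux hs).mul_left _) (fun n => norm_zt_le s (by linarith) (by omega))

/-- the analytic continuation -/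
noncomputable def Z (s : ℂ) : ℂ := s + ∑' n : ℕ, zt s (n + 1)

lemma sum_range_zt (s : ℂ) (N : ℕ) :
    ∑ n ∈ range N, zt s (n + 1) =
      (s - 1) * (∑ n ∈ Icc 1 (N + 1), (n : ℂ) ^ (-s) - 1) + ((N + 1 : ℕ) : ℂ) ^ (1 - s) - 1 := by
  induction N with
  | zero => simp
  | succ N ih =>
    rw [sum_range_succ, ih, Finset.sum_Icc_succ_top (a := 1) (b := N + 1) (by omega)]
    unfold zt
    ring

lemma differentiableOn_Z : DifferentiableOn ℂ Z {s | 0 < s.re} := by
  have hopen : ∀ (δ R : ℝ), IsOpen {s : ℂ | δ < s.re ∧ ‖s‖ < R} := fun δ R =>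
    (isOpen_lt continuous_const Complex.continuous_re).inter
      (isOpen_lt continuous_norm continuous_const)
  intro s hs
  have hs0 : 0 < s.re := hs
  set δ := s.re / 2 with hδ
  have hδ0 : 0 < δ := by positivity
  set R := ‖s‖ + 1 with hR
  have hR0 : 0 < R := by positivity
  have hd : DifferentiableOn ℂ Z {s : ℂ | δ < s.re ∧ ‖s‖ < R} := by
    unfold Z
    refine DifferentiableOn.add differentiableOn_id ?_
    refine Complex.differentiableOn_tsum_of_summable_norm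
      (u := fun n : ℕ => (R + 1) * R * ((n + 1 : ℕ) : ℝ) ^ (-δ - 1))
      ((summable_rpow_aux hδ0).mul_left _) ?_ (hopen δ R) ?_
    · intro n
      unfold zt
      intro w _
      apply DifferentiableAt.differentiableWithinAt
      have h1 : ((n + 1 : ℕ) : ℂ) ≠ 0 := by exact_mod_cast Nat.succ_ne_zero n
      have h2 : ((n + 1 + 1 : ℕ) : ℂ) ≠ 0 := by exact_mod_cast Nat.succ_ne_zero (n + 1)
      apply DifferentiableAt.add
      · apply DifferentiableAt.mul
        · exact differentiableAt_id.sub_const 1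
        · exact (differentiableAt_id.neg).const_cpow (Or.inl h2)
      · apply DifferentiableAt.sub
        · exact (differentiableAt_id.const_sub 1).const_cpow (Or.inl h2)
        · exact (differentiableAt_id.const_sub 1).const_cpow (Or.inl h1)
    · intro n w hw
      refine (norm_zt_le w (by linarith [hw.1]) (by omega)).trans ?_
      have hw1 : ‖w - 1‖ ≤ R + 1 := by
        refine (norm_sub_le _ _).trans ?_
        rw [norm_one]
        linarith [hw.2]
      apply mul_le_mul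
      · exact mul_le_mul hw1 hw.2.le (norm_nonneg _) (by positivity)
      · apply Real.rpow_le_rpow_of_exponent_le
        · have : (1 : ℕ) ≤ n + 1 := by omega
          exact_mod_cast this
        · linarith [hw.1]
      · positivity
      · positivity
  have hmem : s ∈ {s : ℂ | δ < s.re ∧ ‖s‖ < R} := by
    constructor
    · rw [hδ]; linarith
    · rw [hR]; linarith
  exact ((hd s hmem).differentiableAt ((hopen δ R).mem_nhds hmem)).differentiableWithinAt

lemma Z_eq_of_one_lt {s : ℂ} (hs : 1 < s.re) : Z s = riemannZeta₁ s := by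
  have hs1 : s ≠ 1 := by
    rintro rfl; simp at hs
  have h1 := (summable_zt (s := s) (by linarith)).hasSum.tendsto_sum_nat
  simp_rw [sum_range_zt] at h1
  have hz : riemannZeta₁ s = (s - 1) * riemannZeta s := by
    rw [riemannZeta_eq_inv_sub_mul hs1, ← mul_assoc, mul_inv_cancel₀ (sub_ne_zero.mpr hs1), one_mul]
  have hsum : Filter.Tendsto (fun N : ℕ => ∑ n ∈ Icc 1 (N + 1), (n : ℂ) ^ (-s)) Filter.atTop
      (nhds (riemannZeta s)) := by
    have h2 : Summable (fun n : ℕ => 1 / ((n : ℂ)) ^ s) :=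
      Complex.summable_one_div_nat_cpow.mpr hs
    have h3 : HasSum (fun n : ℕ => 1 / ((n : ℂ)) ^ s) (riemannZeta s) := by
      rw [zeta_eq_tsum_one_div_nat_cpow hs]
      exact h2.hasSum
    have h4 := (h3.tendsto_sum_nat).comp (Filter.tendsto_add_atTop_nat 2)
    refine h4.congr fun N => ?_
    simp only [Function.comp]
    rw [Finset.range_eq_Ico, Finset.sum_eq_sum_Ico_succ_bot (by omega)]
    have hs0 : s ≠ 0 := by rintro rfl; simp at hs; linarith
    rw [Nat.cast_zero, Complex.zero_cpow hs0, div_zero, zero_add]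
    refine Finset.sum_congr ?_ fun n hn => ?_
    · ext n; simp only [mem_Ico, mem_Icc]; omega
    · rw [Complex.cpow_neg, one_div]
  have h5 : Filter.Tendsto (fun N : ℕ => ((N + 1 : ℕ) : ℂ) ^ (1 - s)) Filter.atTop (nhds 0) := by
    rw [tendsto_zero_iff_norm_tendsto_zero]
    have h6 : Filter.Tendsto (fun N : ℕ => ((N + 1 : ℕ) : ℝ) ^ (-(s.re - 1))) Filter.atTop (nhds 0) :=
      (tendsto_rpow_neg_atTop (by linarith)).comp
        (tendsto_natCast_atTop_atTop.comp (Filter.tendsto_add_atTop_nat 1))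
    refine h6.congr fun N => ?_
    rw [Complex.norm_natCast_cpow_of_pos (Nat.succ_pos N)]
    congr 1
    simp
  have h7 : Filter.Tendsto (fun N : ℕ => (s - 1) * (∑ n ∈ Icc 1 (N + 1), (n : ℂ) ^ (-s) - 1) +
      ((N + 1 : ℕ) : ℂ) ^ (1 - s) - 1) Filter.atTop
      (nhds ((s - 1) * (riemannZeta s - 1) + 0 - 1)) :=
    (((hsum.sub_const 1).const_mul (s - 1)).add h5).sub_const 1
  have h8 := tendsto_nhds_unique h1 h7
  unfold Z
  rw [h8, hz]
  ring

lemma isPreconnected_re_pos : IsPreconnected {s : ℂ | 0 < s.re} :=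
  (convex_halfSpace_re_gt 0).isPreconnected

lemma isOpen_re_pos : IsOpen {s : ℂ | 0 < s.re} :=
  isOpen_lt continuous_const Complex.continuous_re

/-- identity theorem on `Re s > 0` -/
lemma eq_of_eq_re_gt_one {F G : ℂ → ℂ} (hF : DifferentiableOn ℂ F {s | 0 < s.re})
    (hG : DifferentiableOn ℂ G {s | 0 < s.re}) (h : ∀ s : ℂ, 1 < s.re → F s = G s)
    {s : ℂ} (hs : 0 < s.re) : F s = G s := by
  have h1 := hF.analyticOnNhd isOpen_re_pos
  have h2 := hG.analyticOnNhd isOpen_re_pos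
  have h3 : F =ᶠ[nhds (2 : ℂ)] G := by
    have h4 : {s : ℂ | 1 < s.re} ∈ nhds (2 : ℂ) :=
      (isOpen_lt continuous_const Complex.continuous_re).mem_nhds (by simp)
    filter_upwards [h4] with z hz
    exact h z hz
  exact h1.eqOn_of_preconnected_of_eventuallyEq h2 isPreconnected_re_pos
    (by simp : (2 : ℂ) ∈ {s : ℂ | 0 < s.re}) h3 hs

lemma Z_eq {s : ℂ} (hs : 0 < s.re) : Z s = riemannZeta₁ s :=
  eq_of_eq_re_gt_one differentiableOn_Z differentiable_riemannZeta₁.differentiableOn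
    (fun _ h => Z_eq_of_one_lt h) hs

/-- crude bound -/
lemma norm_zeta1_le {s : ℂ} (hs : 0 < s.re) :
    ‖riemannZeta₁ s‖ ≤ ‖s‖ + ‖s - 1‖ * ‖s‖ * (1 + 1 / s.re) := by
  rw [← Z_eq hs]
  unfold Z
  refine (norm_add_le _ _).trans (add_le_add le_rfl ?_)
  have hle : ∀ n : ℕ, ‖zt s (n + 1)‖ ≤ ‖s - 1‖ * ‖s‖ * ((n + 1 : ℕ) : ℝ) ^ (-s.re - 1) :=
    fun n => norm_zt_le s (by linarith) (by omega)
  have hsum := (summable_rpow_aux hs).mul_left (‖s - 1‖ * ‖s‖)
  have hs' : Summable (fun n : ℕ => ‖zt s (n + 1)‖) :=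
    Summable.of_nonneg_of_le (fun _ => norm_nonneg _) hle hsum
  refine (norm_tsum_le_tsum_norm hs').trans ((Summable.tsum_le_tsum hle hs' hsum).trans ?_)
  rw [tsum_mul_left]
  exact mul_le_mul_of_nonneg_left (tsum_all_le hs) (by positivity)

/-- truncated bound -/
lemma norm_zeta1_le_trunc {s : ℂ} (hs : 0 < s.re) {N : ℕ} (hN : 1 ≤ N) :
    ‖riemannZeta₁ s‖ ≤ ‖s - 1‖ * ∑ n ∈ Icc 1 (N + 1), (n : ℝ) ^ (-s.re) +
      ((N + 1 : ℕ) : ℝ) ^ (1 - s.re) + ‖s - 1‖ * ‖s‖ * ((N : ℝ) ^ (-s.re) / s.re) := by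
  have hN0 : (0 : ℝ) < N := by exact_mod_cast hN
  rw [← Z_eq hs]
  have h0 : Z s = (s - 1) * ∑ n ∈ Icc 1 (N + 1), (n : ℂ) ^ (-s) + ((N + 1 : ℕ) : ℂ) ^ (1 - s) +
      ∑' n : ℕ, zt s (n + N + 1) := by
    unfold Z
    rw [← Summable.sum_add_tsum_nat_add N (summable_zt hs), sum_range_zt]
    ring
  have ht : ‖∑' n : ℕ, zt s (n + N + 1)‖ ≤ ‖s - 1‖ * ‖s‖ * ((N : ℝ) ^ (-s.re) / s.re) := by
    have hsum : Summable (fun n : ℕ => ‖s - 1‖ * ‖s‖ * ((n + N + 1 : ℕ) : ℝ) ^ (-s.re - 1)) := by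
      apply Summable.mul_left
      exact (summable_nat_add_iff N).mpr (summable_rpow_aux hs)
    have hle : ∀ n : ℕ, ‖zt s (n + N + 1)‖ ≤
        ‖s - 1‖ * ‖s‖ * ((n + N + 1 : ℕ) : ℝ) ^ (-s.re - 1) := fun n =>
      norm_zt_le s (by linarith) (by omega)
    have hs' : Summable (fun n : ℕ => ‖zt s (n + N + 1)‖) :=
      Summable.of_nonneg_of_le (fun _ => norm_nonneg _) hle hsum
    refine (norm_tsum_le_tsum_norm hs').trans ((Summable.tsum_le_tsum hle hs' hsum).trans ?_)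
    rw [tsum_mul_left]
    exact mul_le_mul_of_nonneg_left (tsum_tail_le hs hN) (by positivity)
  rw [h0]
  refine (norm_add_le _ _).trans (add_le_add ?_ ht)
  refine (norm_add_le _ _).trans (add_le_add ?_ ?_)
  · rw [norm_mul]
    refine mul_le_mul_of_nonneg_left ?_ (norm_nonneg _)
    refine (norm_sum_le _ _).trans (Finset.sum_le_sum fun n hn => ?_)
    have hn1 := (mem_Icc.mp hn).1
    rw [Complex.norm_natCast_cpow_of_pos hn1, Complex.neg_re]
  · rw [Complex.norm_natCast_cpow_of_pos (Nat.succ_pos N)]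
    simp

end Crest.Agent.R001.SW
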